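import Vale.Agent.P300.H266.Sys
import Vale.Agent.P300.H113.PhiS
import Vale.Agent.P300.H327.Bcl
import Vale.Agent.P300.H327.Null

/-!
# P300 / PROJ, block JETS, part (b): functions with finite `L²` norm are sections

`Fν` is holomorphic on `X₀` with `∫ |Fν|² |jac|² exp(-φ) (1 + |z - w0|²)^(-k0) < ∞` in all charts of
the covering `co ν`, `φ = (k - k0) phi`. Then the function `Fν / (det (D g ν) (m ν)^k)` is a section
of `K ⊗ L^k` over the whole compactification.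
-/

set_option autoImplicit false

open Set Filter Topology Metric MeasureTheory
open scoped ENNReal

namespace Vale.Agent.P300.H265

open Vale.Agent.P300.H266

variable {X₀ : Type} [TopologicalSpace X₀] {pr : X₀ → Fin 2 → ℂ} {N : ℕ}

/-- The growth of the weight, at an arbitrary center. -/
theorem one_add_vz_le (w0 : Fin 2 → ℂ) : ∃ C : ℝ, 0 < C ∧ ∀ z : Fin 2 → ℂ,
    1 + vz w0 z ≤ C * Real.exp (phi z) := by
  refine ⟨2 + 2 * ∑ j, ‖w0 j‖ ^ 2, by positivity, fun z => ?_⟩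
  have h1 : vz w0 z ≤ 2 * ∑ j, ‖z j‖ ^ 2 + 2 * ∑ j, ‖w0 j‖ ^ 2 := by
    unfold vz
    rw [Finset.mul_sum, Finset.mul_sum, ← Finset.sum_add_distrib]
    refine Finset.sum_le_sum fun j _ => ?_
    have h2 : ‖z j - w0 j‖ ≤ ‖z j‖ + ‖w0 j‖ := norm_sub_le _ _
    have h3 : ‖z j - w0 j‖ ^ 2 ≤ (‖z j‖ + ‖w0 j‖) ^ 2 := pow_le_pow_left₀ (norm_nonneg _) h2 2
    nlinarith [sq_nonneg (‖z j‖ - ‖w0 j‖)]
  have h4 := le_exp_phi z
  have h5 : 0 ≤ ∑ j, ‖z j‖ ^ 2 := by positivity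
  have h6 : 0 ≤ ∑ j, ‖w0 j‖ ^ 2 := by positivity
  have h7 : (2 + 2 * ∑ j, ‖w0 j‖ ^ 2) * (1 + ∑ j, ‖z j‖ ^ 2) ≤
      (2 + 2 * ∑ j, ‖w0 j‖ ^ 2) * Real.exp (phi z) :=
    mul_le_mul_of_nonneg_left h4 (by positivity)
  nlinarith [mul_nonneg h5 h6]

/-- Comparison of the weights. -/
theorem exp_le (w0 : Fin 2 → ℂ) {k k0 : ℕ} (hk : k0 ≤ k) : ∃ C : ℝ, 0 < C ∧ ∀ z : Fin 2 → ℂ,
    Real.exp (-(k * phi z)) ≤
      C * (Real.exp (-(((k - k0 : ℕ) : ℝ) * phi z)) * ((1 + vz w0 z) ^ k0)⁻¹) := by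
  obtain ⟨C, hC, h⟩ := one_add_vz_le w0
  refine ⟨C ^ k0, by positivity, fun z => ?_⟩
  have h0 : 0 < 1 + vz w0 z := by have := H266.vz_nonneg w0 z; linarith
  have h1 : (1 + vz w0 z) ^ k0 ≤ C ^ k0 * Real.exp (k0 * phi z) := by
    rw [Real.exp_nat_mul, ← mul_pow]
    exact pow_le_pow_left₀ h0.le (h z) k0
  have h2 : Real.exp (-(k0 * phi z)) ≤ C ^ k0 * ((1 + vz w0 z) ^ k0)⁻¹ := by
    rw [Real.exp_neg, ← div_eq_mul_inv, le_div_iff₀ (by positivity), inv_mul_le_iff₀ (Real.exp_pos _),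
      mul_comm (Real.exp _)]
    exact h1
  have h3 : Real.exp (-(k * phi z)) =
      Real.exp (-(((k - k0 : ℕ) : ℝ) * phi z)) * Real.exp (-(k0 * phi z)) := by
    rw [← Real.exp_add]
    congr 1
    rw [Nat.cast_sub hk]
    ring
  rw [h3]
  calc Real.exp (-(((k - k0 : ℕ) : ℝ) * phi z)) * Real.exp (-(k0 * phi z))
      ≤ Real.exp (-(((k - k0 : ℕ) : ℝ) * phi z)) * (C ^ k0 * ((1 + vz w0 z) ^ k0)⁻¹) :=
        mul_le_mul_of_nonneg_left h2 (Real.exp_pos _).le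
    _ = _ := by ring

/-- The jacobian determinant of a chart is holomorphic. -/
theorem jac_diff {n : ℕ} {E : Type} [TopologicalSpace E] {p : E → Fin n → ℂ}
    {κ : (Fin n → ℂ) → E} {B : Set (Fin n → ℂ)} (hκ : IsChart p κ B) :
    DifferentiableOn ℂ (jac p κ) B := by
  have h1 : DifferentiableOn ℂ (fun x => fderiv ℂ (fun x => p (κ x)) x) B :=
    ((Vale.Agent.P268.analyticOnNhd_of_differentiableOn hκ.isOpen hκ.holo).fderiv).differentiableOn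
  exact H327.differentiable_det327.comp_differentiableOn h1

/-- Bound of `phi` near a point of `R`. -/
theorem phi_local {w : Fin 2 → ℂ} (hw : w ∈ R) : ∃ b : ℝ, ∀ᶠ z in 𝓝 w, phi z ≤ b := by
  have h1 : w 0 * w 1 ≠ 1 := (R_sub hw).2.2
  obtain ⟨ε, hε, -, c, -, -, b, hb⟩ := H113.hphi_local h1
  exact ⟨b, by filter_upwards [closedBall_mem_nhds w hε] with z hz using hb z hz⟩

variable (D : NodeSys X₀ pr) {ν : D.Nd}

/-- The function on `X₀` of the section given by `Fν` in the frame of the node `ν`. -/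
noncomputable def toF (ν : D.Nd) (k : ℕ) (Fν : X₀ → ℂ) (e : X₀) : ℂ :=
  Fν e / ((fderiv ℂ (D.g ν) (D.co ν e)).det * D.m ν (D.co ν e) ^ k)

variable {D}

theorem co_mem (hp : IsFinCov pr V N) (e : X₀) : D.co ν e ∈ V := (D.adm ν).maps' _ (hp.mem e)

/-- The section in the frames of the pieces. -/
theorem toF_mul_fac (hp : IsFinCov pr V N) {ν' : D.Nd} {s' : D.ι ν'} (k : ℕ) (Fν : X₀ → ℂ)
    {x : Fin 2 → ℂ} (hx : x ∈ D.Int ν' s') :
    toF D ν k Fν (D.θ ν' s' x) * D.fac ν' s' k x =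
      Fν (D.θ ν' s' x) * jac (D.co ν) (D.θ ν' s') x *
        (D.m ν' (D.pwr ν' s' x) / D.m ν (D.co ν (D.θ ν' s' x))) ^ k := by
  have hV : D.co ν (D.θ ν' s' x) ∈ V := co_mem hp _
  have h1 : (fderiv ℂ (D.g ν) (D.co ν (D.θ ν' s' x))).det ≠ 0 := NodeSys.det_g_ne hV
  have h2 : D.m ν (D.co ν (D.θ ν' s' x)) ^ k ≠ 0 := pow_ne_zero _ ((D.adm ν).mne _ hV)
  rw [NodeSys.fac_eq ν k hx, toF, div_pow]
  field_simp

/-- **Part (b).** Finite norm implies section. -/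
theorem isSection_of_L2 [T2Space X₀] (hp : IsFinCov pr V N) {k k0 : ℕ} (hk : k0 ≤ k)
    (w0 : Fin 2 → ℂ) {Fν : X₀ → ℂ} (hF : HoloE (D.co ν) V Fν)
    (hI : ∀ (κ : (Fin 2 → ℂ) → X₀) (B : Set (Fin 2 → ℂ)), IsChart (D.co ν) κ B →
      ∫⁻ x in B, ENNReal.ofReal (‖Fν (κ x)‖ ^ 2 * ‖jac (D.co ν) κ x‖ ^ 2 *
        (Real.exp (-(((k - k0 : ℕ) : ℝ) * phi (D.co ν (κ x)))) *
          ((1 + vz w0 (D.co ν (κ x))) ^ k0)⁻¹)) < ⊤) :
    D.IsSection k (toF D ν k Fν) := by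
  intro ν' s'
  have hc : IsChart (D.co ν) (D.θ ν' s') (D.Int ν' s') := NodeSys.isChart ν
  set f : (Fin 2 → ℂ) → ℂ := fun x => Fν (D.θ ν' s' x) * jac (D.co ν) (D.θ ν' s') x *
        (D.m ν' (D.pwr ν' s' x) / D.m ν (D.co ν (D.θ ν' s' x))) ^ k with hf
  have hV : ∀ x, D.co ν (D.θ ν' s' x) ∈ V := fun x => co_mem hp _
  have hfd : DifferentiableOn ℂ f (D.Int ν' s') := by
    have h1 : DifferentiableOn ℂ (fun x => Fν (D.θ ν' s' x)) (D.Int ν' s') :=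
      (hp.change (D.adm ν)).holo_chart hF hc
    have h2 : DifferentiableOn ℂ (jac (D.co ν) (D.θ ν' s')) (D.Int ν' s') := jac_diff hc
    have h3 : DifferentiableOn ℂ (fun x => D.m ν' (D.pwr ν' s' x)) (D.Int ν' s') :=
      (D.adm ν').mdiff.comp differentiable_pw.differentiableOn fun x hx => NodeSys.pwr_mem hx
    have h4 : DifferentiableOn ℂ (fun x => D.m ν (D.co ν (D.θ ν' s' x))) (D.Int ν' s') :=
      (D.adm ν).mdiff.comp hc.holo fun x _ => hV x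
    have h5 : DifferentiableOn ℂ (fun x => D.m ν' (D.pwr ν' s' x) *
        (D.m ν (D.co ν (D.θ ν' s' x)))⁻¹) (D.Int ν' s') :=
      h3.mul (h4.inv fun x _ => (D.adm ν).mne _ (hV x))
    have h6 := (h1.mul h2).mul (h5.pow k)
    exact h6
  obtain ⟨C, hC, hCe⟩ := exp_le w0 hk
  have hnorm : ∀ x ∈ D.Int ν' s', ‖f x‖ ^ 2 = ‖Fν (D.θ ν' s' x)‖ ^ 2 *
      ‖jac (D.co ν) (D.θ ν' s') x‖ ^ 2 *
      Real.exp (k * (phi (D.pwr ν' s' x) - phi (D.co ν (D.θ ν' s' x)))) := by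
    intro x hx
    have h1 := NodeSys.weight_eq (D := D) (ν := ν') (s := s') ν k hx
    have h2 : ‖D.m ν (D.co ν (D.θ ν' s' x)) ^ k‖ ^ 2 ≠ 0 :=
      pow_ne_zero _ (norm_ne_zero_iff.2 (pow_ne_zero _ ((D.adm ν).mne _ (hV x))))
    have h3 : f x = Fν (D.θ ν' s' x) * jac (D.co ν) (D.θ ν' s') x *
        (D.m ν' (D.pwr ν' s' x) / D.m ν (D.co ν (D.θ ν' s' x))) ^ k := rfl
    rw [h3, norm_mul, norm_mul, mul_pow, mul_pow, div_pow, norm_div, div_pow, h1,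
      mul_div_cancel_left₀ _ h2]
  have key : ∃ G : (Fin 2 → ℂ) → ℂ, DifferentiableOn ℂ G (D.Full ν' s') ∧
      ∀ z ∈ D.Full ν' s', z 0 * z 1 ≠ 0 → G z = f z := by
    refine Vale.Agent.P271.H408.ext_L2 isOpen_Of (h := fun z : Fin 2 → ℂ => z 0 * z 1) ?_ ?_ hfd ?_
    · exact ((differentiable_apply (𝕜 := ℂ) (0 : Fin 2)).mul
        (differentiable_apply (𝕜 := ℂ) (1 : Fin 2))).differentiableOn
    · intro y _
      rw [Filter.frequently_iff]
      intro U hU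
      obtain ⟨ε, hε, hεU⟩ := Metric.mem_nhds_iff.1 hU
      by_contra hcon
      push Not at hcon
      have h1 : volume (ball y ε) = 0 := by
        refine measure_mono_null (fun z hz => ?_) H327.null_axes
        exact hcon z (hεU hz)
      exact (measure_ball_pos volume y hε).ne' h1
    · intro y hy
      obtain ⟨b, hb⟩ := phi_local (w := D.pwr ν' s' y) hy
      have h1 : ∀ᶠ z in 𝓝 y, phi (D.pwr ν' s' z) ≤ b ∧ z ∈ D.Full ν' s' :=
        ((continuous_pw.tendsto y).eventually hb).and (isOpen_Of.mem_nhds hy)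
      obtain ⟨r, hr, h2⟩ := Metric.eventually_nhds_iff_ball.1 h1
      refine ⟨r, hr, ?_⟩
      have hsub : ball y r ∩ {z | z 0 * z 1 ≠ 0} ⊆ D.Int ν' s' := fun z hz =>
        ⟨(h2 z hz.1).2, hz.2⟩
      have hmeas : MeasurableSet (ball y r ∩ {z : Fin 2 → ℂ | z 0 * z 1 ≠ 0}) :=
        (isOpen_ball.inter H266.isOpen_ne).measurableSet
      have h3 : ∫⁻ z in ball y r ∩ {z | z 0 * z 1 ≠ 0}, ‖f z‖ₑ ^ 2 ≤
          ENNReal.ofReal (Real.exp (k * b) * C) * ∫⁻ x in D.Int ν' s',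
            ENNReal.ofReal (‖Fν (D.θ ν' s' x)‖ ^ 2 * ‖jac (D.co ν) (D.θ ν' s') x‖ ^ 2 *
              (Real.exp (-(((k - k0 : ℕ) : ℝ) * phi (D.co ν (D.θ ν' s' x)))) *
                ((1 + vz w0 (D.co ν (D.θ ν' s' x))) ^ k0)⁻¹)) := by
        rw [← lintegral_const_mul' _ _ ENNReal.ofReal_ne_top]
        refine (setLIntegral_mono' hmeas fun z hz => ?_).trans (lintegral_mono_set hsub)
        have hzI := hsub hz
        have h4 : ‖f z‖ₑ ^ 2 = ENNReal.ofReal (‖f z‖ ^ 2) := by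
          rw [← ofReal_norm, ← ENNReal.ofReal_pow (norm_nonneg _)]
        rw [h4, ← ENNReal.ofReal_mul (by positivity)]
        refine ENNReal.ofReal_le_ofReal ?_
        rw [hnorm z hzI]
        have h5 := hCe (D.co ν (D.θ ν' s' z))
        have h6 : Real.exp (k * (phi (D.pwr ν' s' z) - phi (D.co ν (D.θ ν' s' z)))) ≤
            Real.exp (k * b) * Real.exp (-(k * phi (D.co ν (D.θ ν' s' z)))) := by
          rw [← Real.exp_add]
          refine Real.exp_le_exp.2 ?_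
          have h7 := (h2 z hz.1).1
          have h8 : (k : ℝ) * phi (D.pwr ν' s' z) ≤ k * b :=
            mul_le_mul_of_nonneg_left h7 (Nat.cast_nonneg _)
          linarith
        have h9 : 0 ≤ ‖Fν (D.θ ν' s' z)‖ ^ 2 * ‖jac (D.co ν) (D.θ ν' s') z‖ ^ 2 := by positivity
        calc ‖Fν (D.θ ν' s' z)‖ ^ 2 * ‖jac (D.co ν) (D.θ ν' s') z‖ ^ 2 *
              Real.exp (k * (phi (D.pwr ν' s' z) - phi (D.co ν (D.θ ν' s' z))))
            ≤ ‖Fν (D.θ ν' s' z)‖ ^ 2 * ‖jac (D.co ν) (D.θ ν' s') z‖ ^ 2 *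
              (Real.exp (k * b) * (C * (Real.exp (-(((k - k0 : ℕ) : ℝ) *
                phi (D.co ν (D.θ ν' s' z)))) * ((1 + vz w0 (D.co ν (D.θ ν' s' z))) ^ k0)⁻¹))) :=
              mul_le_mul_of_nonneg_left (h6.trans (mul_le_mul_of_nonneg_left h5
                (Real.exp_pos _).le)) h9
          _ = _ := by ring
      refine ne_top_of_le_ne_top (ENNReal.mul_ne_top ENNReal.ofReal_ne_top ?_) h3
      exact (hI _ _ hc).ne
  obtain ⟨G, hG, hGe⟩ := key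
  refine ⟨G, hG, fun x hx => ?_⟩
  rw [toF_mul_fac hp k Fν hx]
  exact hGe x hx.1 hx.2

/-- **Part (b), in the form used by the theorem on jets** (`k = 4`, weight `phi`, `k0 = 3`). -/
theorem isSection_four [T2Space X₀] (hp : IsFinCov pr V N) {D : NodeSys X₀ pr} (ν : D.Nd)
    {F' : X₀ → ℂ} (hF : HoloE (D.co ν) V F') (w : Fin 2 → ℂ)
    (hI : ∀ (κ : (Fin 2 → ℂ) → X₀) (B : Set (Fin 2 → ℂ)), IsChart (D.co ν) κ B →
      ∫⁻ x in B, ENNReal.ofReal (‖F' (κ x)‖ ^ 2 * ‖jac (D.co ν) κ x‖ ^ 2 *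
        (Real.exp (-phi (D.co ν (κ x))) * ((1 + vz w (D.co ν (κ x))) ^ 3)⁻¹)) < ⊤) :
    D.IsSection 4 fun e =>
      F' e / ((fderiv ℂ (D.g ν) (D.co ν e)).det * D.m ν (D.co ν e) ^ 4) := by
  refine isSection_of_L2 (D := D) (ν := ν) (k := 4) (k0 := 3) hp (by norm_num) w hF
    fun κ B hκ => ?_
  have h := hI κ B hκ
  have e : (((4 - 3 : ℕ) : ℕ) : ℝ) = 1 := by norm_num
  simp only [e, one_mul]
  exact h

end Vale.Agent.P300.H265
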